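import Vale.Agent.P072.Main

/-!
Every weakly reversible mass-action system is permanent on every positive stoichiometric class.
-/

namespace Vale.Agent.Results.P072.Permanence

open Vale.Agent.P072

/-- For every weakly reversible network, positive rates and positive stoichiometric class there is
a compact subset of the class absorbing every solution, and all solutions are global. -/
theorem result (d : ℕ) (R : Finset ((Fin d → ℕ) × (Fin d → ℕ)))
    (k : (Fin d → ℕ) × (Fin d → ℕ) → ℝ) (hW : WeaklyReversible R) (hk : ∀ e ∈ R, 0 < k e)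
    (c : Fin d → ℝ) (hc : ∀ i, 0 < c i) :
    ∃ K : Set (Fin d → ℝ), IsCompact K ∧ K ⊆ stoichClass R c ∧
      ∀ x₀ ∈ stoichClass R c, ∃ x : ℝ → Fin d → ℝ, x 0 = x₀ ∧
        (∀ t, 0 ≤ t → HasDerivWithinAt x (massAction R k (x t)) (Set.Ici 0) t ∧
          x t ∈ stoichClass R c) ∧
        (∃ T, ∀ t, T ≤ t → x t ∈ K) ∧
        ∀ (T : ℝ) (y : ℝ → Fin d → ℝ), y 0 = x₀ →
          (∀ t, 0 ≤ t → t < T → HasDerivWithinAt y (massAction R k (y t)) (Set.Ico 0 T) t) →
          ∀ t, 0 ≤ t → t < T → y t = x t :=
  permanent k hW hk c hc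

end Vale.Agent.Results.P072.Permanence
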